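import Mathlib

/-!
The Young inequality for `log cosh`, in weighted arithmetic-geometric mean form.
-/

namespace Vale.Agent.P254.BM

lemma log_upper_cubic {u : ℝ} (hu : -1 < u) :
    Real.log (1 + u) ≤ u - u ^ 2 / 2 + u ^ 3 / 3 := by
  set f : ℝ → ℝ := fun v => v - v ^ 2 / 2 + v ^ 3 / 3 - Real.log (1 + v) with hf
  have hd : ∀ v : ℝ, -1 < v → HasDerivAt f (v ^ 3 / (1 + v)) v := by
    intro v hv
    have h1 : (1 + v) ≠ 0 := by linarith
    have h := ((((hasDerivAt_id v).sub ((hasDerivAt_pow 2 v).div_const 2)).add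
      ((hasDerivAt_pow 3 v).div_const 3)).sub (((hasDerivAt_id v).const_add 1).log h1))
    refine h.congr_deriv ?_
    simp only [id_eq]
    field_simp
    ring
  have h0 : f 0 = 0 := by simp [hf]
  suffices hs : 0 ≤ f u by simp only [hf] at hs; linarith
  rcases le_total 0 u with h | h
  · have hmono : MonotoneOn f (Set.Ici 0) := by
      refine monotoneOn_of_hasDerivWithinAt_nonneg (f' := fun v => v ^ 3 / (1 + v)) (convex_Ici 0)
        (fun v hv => (hd v (by linarith [Set.mem_Ici.1 hv])).continuousAt.continuousWithinAt)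
        (fun v hv => ?_) (fun v hv => ?_)
      · rw [interior_Ici, Set.mem_Ioi] at hv
        exact (hd v (by linarith)).hasDerivWithinAt
      · rw [interior_Ici, Set.mem_Ioi] at hv
        positivity
    have := hmono (Set.mem_Ici.2 le_rfl) (Set.mem_Ici.2 h) h
    linarith
  · have hanti : AntitoneOn f (Set.Ioc (-1) 0) := by
      refine antitoneOn_of_hasDerivWithinAt_nonpos (f' := fun v => v ^ 3 / (1 + v)) (convex_Ioc _ _)
        (fun v hv => (hd v hv.1).continuousAt.continuousWithinAt) (fun v hv => ?_) (fun v hv => ?_)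
      · rw [interior_Ioc] at hv
        exact (hd v hv.1).hasDerivWithinAt
      · rw [interior_Ioc] at hv
        have h3 : v ^ 3 ≤ 0 := Odd.pow_nonpos ⟨1, rfl⟩ hv.2.le
        exact div_nonpos_of_nonpos_of_nonneg h3 (by linarith [hv.1])
    have := hanti ⟨hu, h⟩ ⟨by norm_num, le_rfl⟩ h
    linarith

/-- Binary relative entropy is bounded by its two leading terms. -/
lemma bin_entropy_le {u : ℝ} (h1 : -1 < u) (h2 : u < 1) :
    ((1 + u) * Real.log (1 + u) + (1 - u) * Real.log (1 - u)) / 2 ≤ u ^ 2 / 2 + u ^ 4 / 3 := by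
  have hb : Real.log (1 - u) ≤ -u - u ^ 2 / 2 - u ^ 3 / 3 := by
    have := log_upper_cubic (u := -u) (by linarith)
    simp only [← sub_eq_add_neg] at this
    linarith [show (-u) ^ 2 = u ^ 2 by ring, show (-u) ^ 3 = -(u ^ 3) by ring]
  have := mul_le_mul_of_nonneg_left (log_upper_cubic h1) (show (0:ℝ) ≤ 1 + u by linarith)
  have := mul_le_mul_of_nonneg_left hb (show (0:ℝ) ≤ 1 - u by linarith)
  nlinarith

/-- `exp (s log τ - 2 s^2 - 16/3 s^4) ≤ (√τ + 1/√τ)/2` for `|2 s| < 1`. -/
theorem young_cosh {τ s : ℝ} (hτ : 0 < τ) (hs : |2 * s| < 1) :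
    Real.exp (s * Real.log τ - (2 * s ^ 2 + 16 / 3 * s ^ 4)) ≤
      (Real.sqrt τ + 1 / Real.sqrt τ) / 2 := by
  obtain ⟨h1, h2⟩ := abs_lt.1 hs
  set u := 2 * s with hu
  set q := Real.sqrt τ with hq
  have hq0 : 0 < q := Real.sqrt_pos.2 hτ
  have p1 : 0 < 1 + u := by linarith
  have p2 : 0 < 1 - u := by linarith
  have hlog : Real.log τ = 2 * Real.log q := by
    rw [hq, Real.log_sqrt hτ.le]; ring
  have key := Real.geom_mean_le_arith_mean2_weighted (w₁ := (1 + u) / 2) (w₂ := (1 - u) / 2)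
    (p₁ := q / (1 + u)) (p₂ := (1 / q) / (1 - u)) (by positivity) (by positivity)
    (by positivity) (by positivity) (by ring)
  have e : (1 + u) / 2 * (q / (1 + u)) + (1 - u) / 2 * ((1 / q) / (1 - u)) = (q + 1 / q) / 2 := by
    field_simp
  rw [e, Real.rpow_def_of_pos (by positivity), Real.rpow_def_of_pos (by positivity),
    ← Real.exp_add] at key
  refine le_trans (Real.exp_le_exp.2 ?_) key
  rw [Real.log_div hq0.ne' p1.ne', Real.log_div (by positivity) p2.ne', Real.log_div one_ne_zero hq0.ne',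
    Real.log_one, hlog]
  have := bin_entropy_le h1 h2
  rw [hu] at this ⊢
  nlinarith

end Vale.Agent.P254.BM
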