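import Vale.Agent.P254.BM.Weight

/-!
The monotone transport between two decreasing profiles.
-/

open MeasureTheory Set Filter
open scoped Topology

namespace Vale.Agent.P254.BM

/-- The total mass. -/
noncomputable def mass (a : ℝ → ℝ) (h : ℝ) : ℝ := ∫ x in Ioo 0 h, a x

/-- The normalised primitive. -/
noncomputable def cdf (a : ℝ → ℝ) (h x : ℝ) : ℝ := (∫ t in (0:ℝ)..x, a t) / mass a h

/-- The quantile function. -/
noncomputable def quant (a : ℝ → ℝ) (h p : ℝ) : ℝ := Function.invFunOn (cdf a h) (Icc 0 h) p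

/-- The monotone transport of `a` to `b`. -/
noncomputable def tmap (a : ℝ → ℝ) (ha : ℝ) (b : ℝ → ℝ) (hb x : ℝ) : ℝ :=
  quant b hb (cdf a ha x)

/-- Its derivative. -/
noncomputable def tder (a : ℝ → ℝ) (ha : ℝ) (b : ℝ → ℝ) (hb x : ℝ) : ℝ :=
  a x * mass b hb / (mass a ha * b (tmap a ha b hb x))

variable {a b : ℝ → ℝ} {h k : ℝ}

lemma Prof.mass_pos (ha : Prof a h) : 0 < mass a h := ha.integral_pos

lemma Prof.ii (ha : Prof a h) {c d : ℝ} (hc : 0 ≤ c) (hcd : c ≤ d) (hd : d ≤ h) :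
    IntervalIntegrable a volume c d := by
  rw [intervalIntegrable_iff_integrableOn_Ioo_of_le hcd]
  exact ha.integrableOn.mono_set (Ioo_subset_Ioo hc hd)

lemma cdf_zero (a : ℝ → ℝ) (h : ℝ) : cdf a h 0 = 0 := by simp [cdf]

lemma cdf_end (ha : Prof a h) : cdf a h h = 1 := by
  rw [cdf, intervalIntegral.integral_of_le ha.hpos.le, integral_Ioc_eq_integral_Ioo]
  exact div_self ha.mass_pos.ne'

lemma cdf_cont (ha : Prof a h) : ContinuousOn (cdf a h) (Icc 0 h) := by
  have hprim := intervalIntegral.continuousOn_primitive_interval (μ := volume) (a := 0) (b := h)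
    (f := a) (by rw [uIcc_of_le ha.hpos.le]; exact ha.integrableOn.congr_set_ae Ioo_ae_eq_Icc.symm)
  rw [uIcc_of_le ha.hpos.le] at hprim
  exact hprim.div_const _

lemma cdf_deriv (ha : Prof a h) {x : ℝ} (hx : x ∈ Ioo 0 h) :
    HasDerivAt (cdf a h) (a x / mass a h) x :=
  (intervalIntegral.integral_hasDerivAt_right (ha.ii le_rfl hx.1.le hx.2.le)
    (ha.cont.stronglyMeasurableAtFilter isOpen_Ioo x hx)
    (ha.cont.continuousAt (isOpen_Ioo.mem_nhds hx))).div_const _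

lemma cdf_mono (ha : Prof a h) : StrictMonoOn (cdf a h) (Icc 0 h) := by
  refine strictMonoOn_of_deriv_pos (convex_Icc 0 h) (cdf_cont ha) fun x hx => ?_
  rw [interior_Icc] at hx
  rw [(cdf_deriv ha hx).deriv]
  exact div_pos (ha.pos x hx) ha.mass_pos

lemma cdf_surj (ha : Prof a h) : SurjOn (cdf a h) (Icc 0 h) (Icc 0 1) := by
  intro p hp
  have := intermediate_value_Icc ha.hpos.le (cdf_cont ha)
  rw [cdf_zero, cdf_end ha] at this
  exact this hp

lemma cdf_mem (ha : Prof a h) {x : ℝ} (hx : x ∈ Ioo 0 h) : cdf a h x ∈ Ioo 0 1 := by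
  have h0 := cdf_mono ha ⟨le_rfl, ha.hpos.le⟩ (Ioo_subset_Icc_self hx) hx.1
  have h1 := cdf_mono ha (Ioo_subset_Icc_self hx) ⟨ha.hpos.le, le_rfl⟩ hx.2
  rw [cdf_zero] at h0
  rw [cdf_end ha] at h1
  exact ⟨h0, h1⟩

lemma quant_mem (ha : Prof a h) {p : ℝ} (hp : p ∈ Ioo 0 1) :
    quant a h p ∈ Ioo 0 h ∧ cdf a h (quant a h p) = p := by
  have hs := cdf_surj ha (Ioo_subset_Icc_self hp)
  have e : cdf a h (quant a h p) = p := Function.invFunOn_eq hs
  have hm : quant a h p ∈ Icc 0 h := Function.invFunOn_mem hs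
  refine ⟨⟨hm.1.lt_of_ne fun h0 => ?_, hm.2.lt_of_ne fun h0 => ?_⟩, e⟩
  · rw [← h0, cdf_zero] at e
    linarith [hp.1]
  · rw [h0, cdf_end ha] at e
    linarith [hp.2]

lemma quant_cdf (ha : Prof a h) {x : ℝ} (hx : x ∈ Ioo 0 h) : quant a h (cdf a h x) = x := by
  obtain ⟨h1, h2⟩ := quant_mem ha (cdf_mem ha hx)
  exact (cdf_mono ha).injOn (Ioo_subset_Icc_self h1) (Ioo_subset_Icc_self hx) h2

lemma quant_deriv (ha : Prof a h) {p : ℝ} (hp : p ∈ Ioo 0 1) :
    HasDerivAt (quant a h) (a (quant a h p) / mass a h)⁻¹ p := by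
  obtain ⟨hm, -⟩ := quant_mem ha hp
  have hev : ∀ᶠ q in 𝓝 p, q ∈ Ioo (0:ℝ) 1 := isOpen_Ioo.mem_nhds hp
  have hmono : StrictMonoOn (quant a h) (Ioo 0 1) := by
    intro u hu v hv huv
    obtain ⟨mu, eu⟩ := quant_mem ha hu
    obtain ⟨mv, ev⟩ := quant_mem ha hv
    by_contra hcon
    have := (cdf_mono ha).monotoneOn (Ioo_subset_Icc_self mv) (Ioo_subset_Icc_self mu) (not_lt.1 hcon)
    linarith
  have himg : quant a h '' Ioo 0 1 = Ioo 0 h := by
    refine Subset.antisymm ?_ fun x hx => ⟨_, cdf_mem ha hx, quant_cdf ha hx⟩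
    rintro _ ⟨q, hq, rfl⟩
    exact (quant_mem ha hq).1
  have hc : ContinuousAt (quant a h) p :=
    hmono.continuousAt_of_image_mem_nhds hev (by rw [himg]; exact isOpen_Ioo.mem_nhds hm)
  exact (cdf_deriv ha hm).of_local_left_inverse hc (div_pos (ha.pos _ hm) ha.mass_pos).ne'
    (hev.mono fun q hq => (quant_mem ha hq).2)

lemma tmap_mem (ha : Prof a h) (hb : Prof b k) {x : ℝ} (hx : x ∈ Ioo 0 h) :
    tmap a h b k x ∈ Ioo 0 k :=
  (quant_mem hb (cdf_mem ha hx)).1

lemma tmap_inv (ha : Prof a h) (hb : Prof b k) {x : ℝ} (hx : x ∈ Ioo 0 h) :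
    tmap b k a h (tmap a h b k x) = x := by
  rw [tmap, tmap, (quant_mem hb (cdf_mem ha hx)).2, quant_cdf ha hx]

lemma tder_pos (ha : Prof a h) (hb : Prof b k) {x : ℝ} (hx : x ∈ Ioo 0 h) :
    0 < tder a h b k x :=
  div_pos (mul_pos (ha.pos x hx) hb.mass_pos) (mul_pos ha.mass_pos (hb.pos _ (tmap_mem ha hb hx)))

lemma tmap_deriv (ha : Prof a h) (hb : Prof b k) {x : ℝ} (hx : x ∈ Ioo 0 h) :
    HasDerivAt (tmap a h b k) (tder a h b k x) x := by
  have := (quant_deriv hb (cdf_mem ha hx)).comp x (cdf_deriv ha hx)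
  refine this.congr_deriv ?_
  have h1 := ha.mass_pos.ne'
  have h2 := hb.mass_pos.ne'
  have h3 := (hb.pos _ (tmap_mem ha hb hx)).ne'
  simp only [tder, tmap] at h3 ⊢
  field_simp

lemma tmap_injOn (ha : Prof a h) (hb : Prof b k) : InjOn (tmap a h b k) (Ioo 0 h) := by
  intro x hx y hy e
  rw [← tmap_inv ha hb hx, e, tmap_inv ha hb hy]

lemma tmap_image (ha : Prof a h) (hb : Prof b k) : tmap a h b k '' Ioo 0 h = Ioo 0 k := by
  refine Subset.antisymm ?_ fun y hy => ⟨_, tmap_mem hb ha hy, tmap_inv hb ha hy⟩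
  rintro _ ⟨x, hx, rfl⟩
  exact tmap_mem ha hb hx

lemma tmap_contOn (ha : Prof a h) (hb : Prof b k) : ContinuousOn (tmap a h b k) (Ioo 0 h) :=
  fun _ hx => (tmap_deriv ha hb hx).continuousAt.continuousWithinAt

lemma tder_contOn (ha : Prof a h) (hb : Prof b k) : ContinuousOn (tder a h b k) (Ioo 0 h) :=
  (ha.cont.mul continuousOn_const).div
    (continuousOn_const.mul (hb.cont.comp (tmap_contOn ha hb) fun _ hx => tmap_mem ha hb hx))
    fun _ hx => (mul_pos ha.mass_pos (hb.pos _ (tmap_mem ha hb hx))).ne'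

/-- Push-forward: `∫ g b / B = ∫ (g ∘ T) a / A`. -/
lemma tmap_push (ha : Prof a h) (hb : Prof b k) {g : ℝ → ℝ}
    (hg : IntegrableOn (fun y => b y * g y) (Ioo 0 k)) :
    IntegrableOn (fun x => a x * g (tmap a h b k x)) (Ioo 0 h) ∧
      (∫ y in Ioo 0 k, b y * g y) / mass b k =
        (∫ x in Ioo 0 h, a x * g (tmap a h b k x)) / mass a h := by
  have hd : ∀ x ∈ Ioo 0 h, HasDerivWithinAt (tmap a h b k) (tder a h b k x) (Ioo 0 h) x :=
    fun x hx => (tmap_deriv ha hb hx).hasDerivWithinAt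
  have h1 := (integrableOn_image_iff_integrableOn_abs_deriv_smul measurableSet_Ioo hd
    (tmap_injOn ha hb) (fun y => b y * g y)).1 (by rwa [tmap_image ha hb])
  have h2 := integral_image_eq_integral_abs_deriv_smul measurableSet_Ioo hd
    (tmap_injOn ha hb) (fun y => b y * g y)
  rw [tmap_image ha hb] at h2
  have e : EqOn (fun x => |tder a h b k x| • (b (tmap a h b k x) * g (tmap a h b k x)))
      (fun x => mass b k / mass a h * (a x * g (tmap a h b k x))) (Ioo 0 h) := by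
    intro x hx
    simp only [smul_eq_mul]
    rw [abs_of_pos (tder_pos ha hb hx)]
    have := (hb.pos _ (tmap_mem ha hb hx)).ne'
    have := ha.mass_pos.ne'
    simp only [tder]
    field_simp
  have hc : mass b k / mass a h ≠ 0 := (div_pos hb.mass_pos ha.mass_pos).ne'
  refine ⟨?_, ?_⟩
  · exact (integrable_const_mul_iff (isUnit_iff_ne_zero.2 hc) _).1
      (h1.congr_fun e measurableSet_Ioo)
  · rw [h2, setIntegral_congr_fun measurableSet_Ioo e, integral_const_mul]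
    have := hb.mass_pos.ne'
    field_simp

/-- `∫_0^x T' ≤ T x`. -/
lemma tmap_primitive (ha : Prof a h) (hb : Prof b k) {x : ℝ} (hx : x ∈ Ioo 0 h) :
    IntegrableOn (tder a h b k) (Ioo 0 x) ∧ ∫ y in Ioo 0 x, tder a h b k y ≤ tmap a h b k x := by
  have hsub : Ioo 0 x ⊆ Ioo 0 h := Ioo_subset_Ioo_right hx.2.le
  have hd : ∀ y ∈ Ioo 0 x, HasDerivWithinAt (tmap a h b k) (tder a h b k y) (Ioo 0 x) y :=
    fun y hy => (tmap_deriv ha hb (hsub hy)).hasDerivWithinAt
  have hinj : InjOn (tmap a h b k) (Ioo 0 x) := (tmap_injOn ha hb).mono hsub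
  have himg : tmap a h b k '' Ioo 0 x ⊆ Ioo 0 (tmap a h b k x) := by
    rintro _ ⟨y, hy, rfl⟩
    refine ⟨(tmap_mem ha hb (hsub hy)).1, lt_of_not_ge fun hcon => ?_⟩
    have h1 := (cdf_mono hb).monotoneOn (Ioo_subset_Icc_self (tmap_mem ha hb hx))
      (Ioo_subset_Icc_self (tmap_mem ha hb (hsub hy))) hcon
    rw [tmap, tmap, (quant_mem hb (cdf_mem ha hx)).2,
      (quant_mem hb (cdf_mem ha (hsub hy))).2] at h1
    exact absurd h1 (not_le.2 (cdf_mono ha (Ioo_subset_Icc_self (hsub hy))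
      (Ioo_subset_Icc_self hx) hy.2))
  have hfin : volume (tmap a h b k '' Ioo 0 x) ≠ ⊤ :=
    measure_ne_top_of_subset himg (by simp)
  have h1 := (integrableOn_image_iff_integrableOn_abs_deriv_smul measurableSet_Ioo hd hinj
    (fun _ => (1:ℝ))).1 (integrableOn_const hfin)
  have h2 := integral_image_eq_integral_abs_deriv_smul measurableSet_Ioo hd hinj (fun _ => (1:ℝ))
  have e : EqOn (fun y => |tder a h b k y| • (1:ℝ)) (tder a h b k) (Ioo 0 x) := fun y hy => by
    simp only [smul_eq_mul, mul_one]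
    exact abs_of_pos (tder_pos ha hb (hsub hy))
  refine ⟨h1.congr_fun e measurableSet_Ioo, ?_⟩
  rw [← setIntegral_congr_fun measurableSet_Ioo e, ← h2, setIntegral_const, smul_eq_mul, mul_one]
  refine (measureReal_mono himg (by simp)).trans ?_
  rw [Real.volume_real_Ioo_of_le (tmap_mem ha hb hx).1.le]
  linarith

end Vale.Agent.P254.BM
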