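import Vale.Agent.P254.BM.Dual
import Vale.Agent.P254.BM.Transport

/-!
The one-dimensional Brunn-Minkowski inequality with a gain in the log-means.
-/

open MeasureTheory Set Filter

namespace Vale.Agent.P254.BM

/-- The regularised logarithm. -/
noncomputable def psi (ε x : ℝ) : ℝ := Real.log (x + ε)

/-- The mean of `g` under the law with density proportional to `a`. -/
noncomputable def avg (a : ℝ → ℝ) (h : ℝ) (g : ℝ → ℝ) : ℝ :=
  (∫ x in Ioo 0 h, a x * g x) / mass a h

variable {a b : ℝ → ℝ} {h k ε : ℝ}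

lemma Prof.mul_log (ha : Prof a h) : IntegrableOn (fun x => a x * Real.log (a x)) (Ioo 0 h) := by
  obtain ⟨C, hC⟩ := ha.bdd
  obtain ⟨D, hD⟩ := (isCompact_Icc (a := (0:ℝ)) (b := max C 0)).exists_bound_of_continuousOn
    Real.continuous_mul_log.continuousOn
  refine Integrable.mono' (integrableOn_const (C := D) (by simp))
    (ha.meas.mul (Real.measurable_log.comp ha.meas)).aestronglyMeasurable ?_
  filter_upwards [ae_restrict_mem measurableSet_Ioo] with x hx
  exact hD _ ⟨(ha.pos x hx).le, (hC x hx).trans (le_max_left _ _)⟩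

lemma Prof.mul_psi (ha : Prof a h) (hε : 0 < ε) :
    IntegrableOn (fun x => a x * psi ε x) (Ioo 0 h) := by
  have hc : ContinuousOn (psi ε) (Icc 0 h) :=
    (continuousOn_id.add continuousOn_const).log fun x hx => by
      show x + ε ≠ 0
      linarith [hx.1]
  exact ((ha.integrableOn.congr_set_ae Ioo_ae_eq_Icc.symm).mul_continuousOn hc
    isCompact_Icc).mono_set Ioo_subset_Icc_self

lemma tmap_lt (ha : Prof a h) (hb : Prof b k) {x y : ℝ} (hx : x ∈ Ioo 0 h) (hy : y ∈ Ioo 0 h)
    (hxy : x < y) : tmap a h b k x < tmap a h b k y := by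
  refine lt_of_not_ge fun hcon => ?_
  have h1 := (cdf_mono hb).monotoneOn (Ioo_subset_Icc_self (tmap_mem ha hb hy))
    (Ioo_subset_Icc_self (tmap_mem ha hb hx)) hcon
  rw [tmap, tmap, (quant_mem hb (cdf_mem ha hy)).2, (quant_mem hb (cdf_mem ha hx)).2] at h1
  exact absurd h1 (not_le.2 (cdf_mono ha (Ioo_subset_Icc_self hx) (Ioo_subset_Icc_self hy) hxy))

/-- `log T'`. -/
noncomputable def eta (a : ℝ → ℝ) (h : ℝ) (b : ℝ → ℝ) (k x : ℝ) : ℝ :=
  Real.log (tder a h b k x)

lemma eta_cont (ha : Prof a h) (hb : Prof b k) : ContinuousOn (eta a h b k) (Ioo 0 h) :=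
  (tder_contOn ha hb).log fun _ hx => (tder_pos ha hb hx).ne'

lemma mul_eta (ha : Prof a h) (hb : Prof b k) :
    IntegrableOn (fun x => a x * eta a h b k x) (Ioo 0 h) := by
  have h1 := (tmap_push ha hb (g := fun y => Real.log (b y)) hb.mul_log).1
  refine IntegrableOn.congr_fun
    (((ha.mul_log.add (ha.integrableOn.mul_const (Real.log (mass b k / mass a h))))).sub h1)
    (fun x hx => ?_) measurableSet_Ioo
  have p1 := ha.pos x hx
  have p2 := hb.pos _ (tmap_mem ha hb hx)
  simp only [Pi.add_apply, Pi.sub_apply, eta, tder]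
  rw [Real.log_div (mul_pos p1 hb.mass_pos).ne' (mul_pos ha.mass_pos p2).ne',
    Real.log_mul p1.ne' hb.mass_pos.ne', Real.log_mul ha.mass_pos.ne' p2.ne',
    Real.log_div hb.mass_pos.ne' ha.mass_pos.ne']
  ring

lemma eta_int (ha : Prof a h) (hb : Prof b k) {x : ℝ} (hx : x ∈ Ioo 0 h) :
    IntegrableOn (eta a h b k) (Ioo 0 x) := by
  have hsub : Ioo 0 x ⊆ Ioo 0 h := Ioo_subset_Ioo_right hx.2.le
  refine Integrable.mono' ((((mul_eta ha hb).mono_set hsub).norm).const_mul (a x)⁻¹)
    (((eta_cont ha hb).mono hsub).aestronglyMeasurable measurableSet_Ioo) ?_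
  filter_upwards [ae_restrict_mem measurableSet_Ioo] with y hy
  have hax := ha.pos x hx
  have hle : a x ≤ a y := ha.anti (hsub hy) hx hy.2.le
  rw [norm_mul, Real.norm_eq_abs (a y), abs_of_pos (ha.pos y (hsub hy)), ← mul_assoc]
  exact le_mul_of_one_le_left (norm_nonneg _) (by rw [← div_eq_inv_mul]; exact (one_le_div hax).2 hle)

/-- The logarithm of an average dominates the average of the logarithm. -/
lemma log_avg (ha : Prof a h) (hb : Prof b k) (hε : 0 < ε) {x : ℝ} (hx : x ∈ Ioo 0 h) :
    (∫ y in Ioo 0 x, eta a h b k y) / (x + ε) ≤ psi ε (tmap a h b k x) - psi ε x := by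
  set T := tmap a h b k x
  have hT : 0 < T := (tmap_mem ha hb hx).1
  have p1 : 0 < x + ε := by linarith [hx.1]
  have p2 : 0 < T + ε := by linarith
  set c := (T + ε) / (x + ε) with hc
  have hc0 : 0 < c := div_pos p2 p1
  have e : psi ε T - psi ε x = Real.log c := (Real.log_div p2.ne' p1.ne').symm
  rw [e, div_le_iff₀ p1]
  obtain ⟨hi, hle⟩ := tmap_primitive ha hb hx
  have hsub : Ioo 0 x ⊆ Ioo 0 h := Ioo_subset_Ioo_right hx.2.le
  have step := setIntegral_mono_on (eta_int ha hb hx)
    ((integrableOn_const (C := Real.log c - 1) (by simp)).add (hi.div_const c)) measurableSet_Ioo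
    (fun y hy => by
      have hp := tder_pos ha hb (hsub hy)
      have := Real.log_le_sub_one_of_pos (div_pos hp hc0)
      rw [Real.log_div hp.ne' hc0.ne'] at this
      simp only [Pi.add_apply, eta]
      linarith)
  have hk : IntegrableOn (fun _ : ℝ => Real.log c - 1) (Ioo 0 x) := integrableOn_const (by simp)
  rw [integral_add' hk (hi.div_const c), setIntegral_const,
    integral_div, Real.volume_real_Ioo_of_le hx.1.le, smul_eq_mul, sub_zero] at step
  have h2 : (∫ y in Ioo 0 x, tder a h b k y) / c ≤ T / c := div_le_div_of_nonneg_right hle hc0.le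
  have h3 : T / c - x = ε * (1 - c⁻¹) := by
    rw [hc]; field_simp; ring
  have h4 : 1 - c⁻¹ ≤ Real.log c := Real.one_sub_inv_le_log_of_pos hc0
  have h5 := mul_le_mul_of_nonneg_left h4 hε.le
  nlinarith

/-- `∫ η J ≤ ∫ a (ψ ∘ T - ψ)`. -/
lemma hazard_le (ha : Prof a h) (hb : Prof b k) (hε : 0 < ε) :
    IntegrableOn (fun y => eta a h b k y * jw a h ε y) (Ioo 0 h) ∧
    ∫ y in Ioo 0 h, eta a h b k y * jw a h ε y ≤
      ∫ x in Ioo 0 h, a x * (psi ε (tmap a h b k x) - psi ε x) := by
  set μ := volume.restrict (Ioo (0:ℝ) h)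
  set η := eta a h b k
  set f : ℝ → ℝ → ℝ := fun x y => if y < x then a x / (x + ε) * η y else 0 with hf
  have hη : AEStronglyMeasurable η μ :=
    (eta_cont ha hb).aestronglyMeasurable measurableSet_Ioo
  have hfm : AEStronglyMeasurable (Function.uncurry f) (μ.prod μ) := by
    have : AEStronglyMeasurable (fun p : ℝ × ℝ => a p.1 / (p.1 + ε) * η p.2) (μ.prod μ) :=
      (((ha.meas.div (measurable_id.add_const ε)).comp measurable_fst).aestronglyMeasurable).mul
        hη.comp_snd
    refine (this.indicator (s := {p : ℝ × ℝ | p.2 < p.1})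
      (measurableSet_lt measurable_snd measurable_fst)).congr (Eventually.of_forall fun p => ?_)
    simp [Function.uncurry, hf, indicator_apply]
  have hfi : Integrable (Function.uncurry f) (μ.prod μ) := by
    refine Integrable.mono' (Integrable.mul_prod (integrable_const (μ := μ) (1 / ε))
      (mul_eta ha hb).norm) hfm ?_
    have hmem : ∀ᵐ p : ℝ × ℝ ∂μ.prod μ, p.1 ∈ Ioo 0 h ∧ p.2 ∈ Ioo 0 h := by
      rw [Measure.prod_restrict]
      filter_upwards [ae_restrict_mem (measurableSet_Ioo.prod measurableSet_Ioo)] with p hp using hp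
    filter_upwards [hmem] with p hp
    simp only [Function.uncurry, hf]
    split_ifs with hlt
    · have h1 := ha.pos _ hp.1
      have h2 := ha.pos _ hp.2
      rw [norm_mul, norm_mul, Real.norm_eq_abs (a p.1 / (p.1 + ε)), Real.norm_eq_abs (a p.2),
        abs_of_pos (div_pos h1 (by linarith [hp.1.1])), abs_of_pos h2, ← mul_assoc, one_div,
        ← div_eq_inv_mul]
      refine mul_le_mul_of_nonneg_right ?_ (norm_nonneg _)
      exact div_le_div₀ h2.le (ha.anti hp.2 hp.1 hlt.le) hε (by linarith [hp.1.1])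
    · simp only [norm_zero]
      positivity
  have inner_y : ∀ y ∈ Ioo 0 h, ∫ x, f x y ∂μ = η y * jw a h ε y := by
    intro y hy
    have e : (fun x => f x y) = (Ioi y).indicator (fun x => η y * (a x / (x + ε))) := by
      funext x
      simp [hf, indicator_apply, mul_comm]
    rw [e, integral_indicator measurableSet_Ioi, Measure.restrict_restrict measurableSet_Ioi,
      show Ioi y ∩ Ioo 0 h = Ioo y h by
        ext x; simp only [mem_inter_iff, mem_Ioi, mem_Ioo]
        exact ⟨fun hh => ⟨hh.1, hh.2.2⟩, fun hh => ⟨hh.1, hy.1.trans hh.1, hh.2⟩⟩,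
      integral_const_mul, jw, intervalIntegral.integral_of_le hy.2.le, integral_Ioc_eq_integral_Ioo]
  have inner_x : ∀ x ∈ Ioo 0 h, ∫ y, f x y ∂μ = a x / (x + ε) * ∫ y in Ioo 0 x, η y := by
    intro x hx
    have e : (fun y => f x y) = (Iio x).indicator (fun y => a x / (x + ε) * η y) := by
      funext y
      simp [hf, indicator_apply]
    rw [e, integral_indicator measurableSet_Iio, Measure.restrict_restrict measurableSet_Iio,
      show Iio x ∩ Ioo 0 h = Ioo 0 x by
        ext y; simp only [mem_inter_iff, mem_Iio, mem_Ioo]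
        exact ⟨fun hh => ⟨hh.2.1, hh.1⟩, fun hh => ⟨hh.2, hh.1, hh.2.trans hx.2⟩⟩,
      integral_const_mul]
  have hR : IntegrableOn (fun x => a x * (psi ε (tmap a h b k x) - psi ε x)) (Ioo 0 h) := by
    simp only [mul_sub]
    exact (tmap_push ha hb (hb.mul_psi hε)).1.sub (ha.mul_psi hε)
  refine ⟨?_, ?_⟩
  · exact hfi.integral_prod_right.congr (by
      filter_upwards [ae_restrict_mem measurableSet_Ioo] with y hy using inner_y y hy)
  · rw [← setIntegral_congr_fun measurableSet_Ioo inner_y, ← integral_integral_swap hfi,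
      setIntegral_congr_fun measurableSet_Ioo inner_x]
    refine setIntegral_mono_on ?_ hR measurableSet_Ioo fun x hx => ?_
    · exact hfi.integral_prod_left.congr (by
        filter_upwards [ae_restrict_mem measurableSet_Ioo] with x hx using inner_x x hx)
    · refine le_trans (le_of_eq ?_) (mul_le_mul_of_nonneg_left (log_avg ha hb hε hx) (ha.pos x hx).le)
      simp only [η]
      field_simp

/-- The weighted integrand of the gain. -/
lemma young_integrable (ha : Prof a h) (hb : Prof b k) (hε : 0 < ε) (θ : ℝ) :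
    IntegrableOn (fun x => a x * (θ * kw a h ε x * eta a h b k x)) (Ioo 0 h) ∧
    IntegrableOn (fun x => a x * (2 * (θ * kw a h ε x) ^ 2 + 16 / 3 * (θ * kw a h ε x) ^ 4))
      (Ioo 0 h) := by
  set L := Real.log ((h + ε) / ε)
  refine ⟨?_, ?_⟩
  · refine ((hazard_le ha hb hε).1.const_mul θ).congr ?_
    filter_upwards [ae_restrict_mem measurableSet_Ioo] with x hx
    have := (ha.pos x hx).ne'
    simp only [kw]
    field_simp
  · refine Integrable.mono'
      ((kw_sq_integrable ha hε).const_mul (2 * θ ^ 2 + 16 / 3 * θ ^ 4 * L ^ 2)) ?_ ?_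
    · exact ha.meas.aestronglyMeasurable.mul
        ((((kw_aesm ha hε).const_mul θ).pow 2).const_mul 2 |>.add
          ((((kw_aesm ha hε).const_mul θ).pow 4).const_mul (16 / 3)))
    filter_upwards [ae_restrict_mem measurableSet_Ioo] with x hx
    obtain ⟨k0, k1⟩ := kw_mem ha hε hx
    have h0 := ha.pos x hx
    rw [Real.norm_eq_abs, abs_of_nonneg (by positivity)]
    have h4 : θ ^ 4 * kw a h ε x ^ 4 ≤ θ ^ 4 * L ^ 2 * kw a h ε x ^ 2 := by
      rw [mul_assoc]
      refine mul_le_mul_of_nonneg_left ?_ (by positivity)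
      calc kw a h ε x ^ 4 = kw a h ε x ^ 2 * kw a h ε x ^ 2 := by ring
        _ ≤ _ := by gcongr
    have := mul_le_mul_of_nonneg_left h4 h0.le
    simp only [mul_pow]
    nlinarith

/-- One sign of the one-dimensional inequality. -/
theorem oneD_neg (ha : Prof a h) (hb : Prof b k) (hε : 0 < ε) {θ q : ℝ} (hθ : θ ≤ 0)
    (hq : |θ| * Real.log ((h + ε) / ε) ≤ q) (hq2 : 2 * q < 1)
    {E F m : ℝ → ℝ} (hE : IntegrableOn (fun x => a x * E x) (Ioo 0 h))
    (hF : IntegrableOn (fun y => b y * F y) (Ioo 0 k))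
    (hm0 : ∀ z, 0 ≤ m z) (hmi : Integrable m)
    (hmid : ∀ x ∈ Ioo 0 h, ∀ y ∈ Ioo 0 k,
      Real.sqrt (a x * b y) * Real.exp (F y - E x) ≤ m ((x + y) / 2)) :
    (Real.log (mass a h) + Real.log (mass b k)) / 2 + (avg b k F - avg a h E) +
      θ * (avg b k (psi ε) - avg a h (psi ε)) - 4 * (1 + 8 / 3 * q ^ 2) * θ ^ 2 ≤
      Real.log (∫ z, m z) := by
  set A := mass a h
  set B := mass b k
  have hA : 0 < A := ha.mass_pos
  have hB : 0 < B := hb.mass_pos
  set T := tmap a h b k
  set τ := tder a h b k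
  set K := kw a h ε
  set Z : ℝ → ℝ := fun x => (F (T x) - E x) +
    (θ * K x * eta a h b k x - (2 * (θ * K x) ^ 2 + 16 / 3 * (θ * K x) ^ 4))
  obtain ⟨pF, eF⟩ := tmap_push ha hb hF
  obtain ⟨pP, eP⟩ := tmap_push ha hb (hb.mul_psi hε)
  obtain ⟨y1, y2⟩ := young_integrable ha hb hε θ
  have hFE : IntegrableOn (fun x => a x * (F (T x) - E x)) (Ioo 0 h) := by
    simp only [mul_sub]; exact pF.sub hE
  have hY : IntegrableOn (fun x => a x * (θ * K x * eta a h b k x -
      (2 * (θ * K x) ^ 2 + 16 / 3 * (θ * K x) ^ 4))) (Ioo 0 h) := by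
    simp only [mul_sub]; exact y1.sub y2
  have hZ : IntegrableOn (fun x => a x * Z x) (Ioo 0 h) := by
    simp only [Z, mul_add (a _)]; exact hFE.add hY
  set c := (∫ x in Ioo 0 h, a x * Z x) / A with hc
  have hd : ∀ x ∈ Ioo 0 h,
      HasDerivWithinAt (fun x => (x + T x) / 2) ((1 + τ x) / 2) (Ioo 0 h) x := fun x hx =>
    (((hasDerivAt_id x).add (tmap_deriv ha hb hx)).div_const 2).hasDerivWithinAt
  have hinj : InjOn (fun x => (x + T x) / 2) (Ioo 0 h) := by
    intro x hx y hy e
    rcases lt_trichotomy x y with hl | hl | hl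
    · have := tmap_lt ha hb hx hy hl; simp only [T] at e; linarith
    · exact hl
    · have := tmap_lt ha hb hy hx hl; simp only [T] at e; linarith
  have himg := integral_image_eq_integral_abs_deriv_smul measurableSet_Ioo hd hinj m
  have himi := (integrableOn_image_iff_integrableOn_abs_deriv_smul measurableSet_Ioo hd hinj m).1
    hmi.integrableOn
  have pointwise : ∀ x ∈ Ioo 0 h,
      Real.sqrt (A * B) * Real.exp c / A * (a x * (1 - c) + a x * Z x) ≤
        |(1 + τ x) / 2| • m ((x + T x) / 2) := by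
    intro x hx
    have hτ : 0 < τ x := tder_pos ha hb hx
    have hax := ha.pos x hx
    have hTm : T x ∈ Ioo 0 k := tmap_mem ha hb hx
    have hbt := hb.pos _ hTm
    obtain ⟨k0, k1⟩ := kw_mem ha hε hx
    have hs : |2 * (θ * K x)| < 1 := by
      have h1 : |θ| * K x ≤ q := (mul_le_mul_of_nonneg_left k1 (abs_nonneg θ)).trans hq
      rw [abs_mul, abs_two, abs_mul, abs_of_nonneg k0]
      linarith
    have hY' := young_cosh hτ hs
    have hsq : Real.sqrt (a x * b (T x)) * Real.sqrt (τ x) = a x * Real.sqrt (A * B) / A := by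
      rw [← Real.sqrt_mul (by positivity)]
      have : a x * b (T x) * τ x = (a x * Real.sqrt (A * B) / A) ^ 2 := by
        rw [div_pow, mul_pow, Real.sq_sqrt (by positivity)]
        simp only [τ, tder, A, B, T]
        have hb' : b (tmap a h b k x) ≠ 0 := hbt.ne'
        have := ha.mass_pos.ne'
        field_simp
      rw [this, Real.sqrt_sq (by positivity)]
    have hZ1 : Real.exp c * (1 + (Z x - c)) ≤ Real.exp (Z x) := by
      have := Real.add_one_le_exp (Z x - c)
      calc Real.exp c * (1 + (Z x - c)) ≤ Real.exp c * Real.exp (Z x - c) :=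
            mul_le_mul_of_nonneg_left (by linarith) (Real.exp_pos _).le
        _ = _ := by rw [← Real.exp_add]; ring_nf
    rw [smul_eq_mul, abs_of_pos (by linarith)]
    calc Real.sqrt (A * B) * Real.exp c / A * (a x * (1 - c) + a x * Z x)
        = a x * Real.sqrt (A * B) / A * (Real.exp c * (1 + (Z x - c))) := by ring
      _ ≤ a x * Real.sqrt (A * B) / A * Real.exp (Z x) :=
          mul_le_mul_of_nonneg_left hZ1 (by positivity)
      _ ≤ a x * Real.sqrt (A * B) / A * (Real.exp (F (T x) - E x) *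
            ((Real.sqrt (τ x) + 1 / Real.sqrt (τ x)) / 2)) := by
          refine mul_le_mul_of_nonneg_left ?_ (by positivity)
          rw [Real.exp_add]
          exact mul_le_mul_of_nonneg_left hY' (Real.exp_pos _).le
      _ = (1 + τ x) / 2 * (Real.sqrt (a x * b (T x)) * Real.exp (F (T x) - E x)) := by
          rw [← hsq]
          have := (Real.sqrt_pos.2 hτ).ne'
          field_simp
          rw [Real.sq_sqrt hτ.le]
          ring
      _ ≤ _ := mul_le_mul_of_nonneg_left (hmid x hx _ hTm) (by linarith)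
  have main := setIntegral_mono_on
    ((((ha.integrableOn.mul_const (1 - c)).add hZ)).const_mul (Real.sqrt (A * B) * Real.exp c / A))
    himi measurableSet_Ioo (fun x hx => by simpa using pointwise x hx)
  rw [← himg, integral_const_mul, integral_add' (ha.integrableOn.mul_const _) hZ,
    integral_mul_const] at main
  have hM : Real.sqrt (A * B) * Real.exp c ≤ ∫ z, m z := by
    refine le_trans (le_of_eq ?_) (main.trans (setIntegral_le_integral hmi (Eventually.of_forall hm0)))
    have : (∫ x in Ioo 0 h, a x * Z x) = c * A := by rw [hc]; field_simp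
    rw [this, show (∫ x in Ioo 0 h, a x) = A from rfl]
    field_simp
    ring
  have hlog : (Real.log A + Real.log B) / 2 + c ≤ Real.log (∫ z, m z) := by
    refine le_trans (le_of_eq ?_) (Real.log_le_log (by positivity) hM)
    rw [Real.log_mul (by positivity) (Real.exp_pos c).ne', Real.log_sqrt (by positivity),
      Real.log_mul hA.ne' hB.ne', Real.log_exp]
  have hcE : (avg b k F - avg a h E) + θ * (avg b k (psi ε) - avg a h (psi ε))
      - 4 * (1 + 8 / 3 * q ^ 2) * θ ^ 2 ≤ c := by
    have e1 : ∫ x in Ioo 0 h, a x * Z x = ((∫ x in Ioo 0 h, a x * F (T x)) - ∫ x in Ioo 0 h, a x * E x)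
        + ((∫ x in Ioo 0 h, a x * (θ * K x * eta a h b k x)) -
          ∫ x in Ioo 0 h, a x * (2 * (θ * K x) ^ 2 + 16 / 3 * (θ * K x) ^ 4)) := by
      rw [← integral_sub pF hE, ← integral_sub y1 y2, ← integral_add]
      rotate_left
      · exact pF.sub hE
      · exact y1.sub y2
      refine setIntegral_congr_fun measurableSet_Ioo fun x _ => ?_
      simp only [Z]; ring
    have e2 : (∫ x in Ioo 0 h, a x * (θ * K x * eta a h b k x)) =
        θ * ∫ y in Ioo 0 h, eta a h b k y * jw a h ε y := by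
      rw [← integral_const_mul]
      refine setIntegral_congr_fun measurableSet_Ioo fun x hx => ?_
      have := (ha.pos x hx).ne'
      simp only [K, kw]
      field_simp
    have e3 : ∫ x in Ioo 0 h, a x * (psi ε (T x) - psi ε x) =
        (∫ x in Ioo 0 h, a x * psi ε (T x)) - ∫ x in Ioo 0 h, a x * psi ε x := by
      simp only [mul_sub]
      exact integral_sub pP (ha.mul_psi hε)
    have g1 := mul_le_mul_of_nonpos_left (hazard_le ha hb hε).2 hθ
    rw [e3] at g1
    have g2 : ∫ x in Ioo 0 h, a x * (2 * (θ * K x) ^ 2 + 16 / 3 * (θ * K x) ^ 4) ≤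
        4 * (1 + 8 / 3 * q ^ 2) * θ ^ 2 * A := by
      calc _ ≤ ∫ x in Ioo 0 h, 2 * (1 + 8 / 3 * q ^ 2) * θ ^ 2 * (a x * K x ^ 2) := by
            refine setIntegral_mono_on y2 ((kw_sq_integrable ha hε).const_mul _) measurableSet_Ioo
              fun x hx => ?_
            obtain ⟨k0, k1⟩ := kw_mem ha hε hx
            have h1 : |θ| * K x ≤ q := (mul_le_mul_of_nonneg_left k1 (abs_nonneg θ)).trans hq
            have h2 : (θ * K x) ^ 2 ≤ q ^ 2 := by
              rw [← sq_abs (θ * K x), abs_mul, abs_of_nonneg k0]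
              exact pow_le_pow_left₀ (by positivity) h1 2
            have h3 := mul_le_mul_of_nonneg_left h2
              (mul_nonneg (ha.pos x hx).le (sq_nonneg (θ * K x)))
            nlinarith
        _ ≤ _ := by
            rw [integral_const_mul]
            have := mul_le_mul_of_nonneg_left (kw_sq_le ha hε)
              (show 0 ≤ 2 * (1 + 8 / 3 * q ^ 2) * θ ^ 2 by positivity)
            refine this.trans (le_of_eq ?_)
            rw [show (∫ y in Ioo 0 h, a y) = A from rfl]
            ring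
    rw [hc, e1, e2]
    simp only [avg]
    rw [eF, eP, ← sub_div, ← sub_div, le_div_iff₀ hA]
    calc _ = ((∫ x in Ioo 0 h, a x * F (T x)) - ∫ x in Ioo 0 h, a x * E x) +
          θ * ((∫ x in Ioo 0 h, a x * psi ε (T x)) - ∫ x in Ioo 0 h, a x * psi ε x)
          - 4 * (1 + 8 / 3 * q ^ 2) * θ ^ 2 * A := by
            have dm : ∀ X : ℝ, X / mass a h * A = X := fun X => div_mul_cancel₀ X hA.ne'
            simp only [sub_mul, add_mul, mul_assoc θ, dm]
            rfl
      _ ≤ _ := by linarith
  linarith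

/-- The one-dimensional inequality: the gain in the mean of `ψ` at the price `4 θ^2`. -/
theorem oneD (ha : Prof a h) (hb : Prof b k) (hε : 0 < ε) {θ q : ℝ}
    (hqa : |θ| * Real.log ((h + ε) / ε) ≤ q) (hqb : |θ| * Real.log ((k + ε) / ε) ≤ q)
    (hq2 : 2 * q < 1) {E F m : ℝ → ℝ} (hE : IntegrableOn (fun x => a x * E x) (Ioo 0 h))
    (hF : IntegrableOn (fun y => b y * F y) (Ioo 0 k))
    (hm0 : ∀ z, 0 ≤ m z) (hmi : Integrable m)
    (hmid : ∀ x ∈ Ioo 0 h, ∀ y ∈ Ioo 0 k,
      Real.sqrt (a x * b y) * Real.exp (F y - E x) ≤ m ((x + y) / 2)) :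
    (Real.log (mass a h) + Real.log (mass b k)) / 2 + (avg b k F - avg a h E) +
      θ * (avg b k (psi ε) - avg a h (psi ε)) - 4 * (1 + 8 / 3 * q ^ 2) * θ ^ 2 ≤
      Real.log (∫ z, m z) := by
  rcases le_total θ 0 with hθ | hθ
  · exact oneD_neg ha hb hε hθ hqa hq2 hE hF hm0 hmi hmid
  · have hneg : ∀ (c : ℝ → ℝ) (l : ℝ) (G : ℝ → ℝ), avg c l (fun x => -G x) = -avg c l G :=
      fun c l G => by simp only [avg, mul_neg, integral_neg, neg_div]
    have := oneD_neg hb ha hε (θ := -θ) (q := q) (E := fun y => -F y) (F := fun x => -E x)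
      (m := m) (by linarith) (by rwa [abs_neg]) hq2
      (by simpa only [mul_neg] using (hF.neg : IntegrableOn (fun y => -(b y * F y)) _))
      (by simpa only [mul_neg] using (hE.neg : IntegrableOn (fun x => -(a x * E x)) _)) hm0 hmi (fun x hx y hy => by
        have h1 := hmid y hy x hx
        rw [mul_comm (b x) (a y), add_comm x y, neg_sub_neg]
        exact h1)
    rw [hneg, hneg, neg_sq] at this
    linarith

end Vale.Agent.P254.BM
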