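import Mathlib

/-!
The hazard weight of a decreasing profile and its second moment.
-/

open MeasureTheory Set
open scoped ENNReal

namespace Vale.Agent.P254.BM

/-- A positive, nonincreasing profile on `(0, h)`, continuous there. -/
structure Prof (a : ℝ → ℝ) (h : ℝ) : Prop where
  hpos : 0 < h
  meas : Measurable a
  pos : ∀ x ∈ Ioo 0 h, 0 < a x
  anti : AntitoneOn a (Ioo 0 h)
  cont : ContinuousOn a (Ioo 0 h)
  bdd : ∃ C, ∀ x ∈ Ioo 0 h, a x ≤ C

/-- `J y = ∫_y^h a x / (x + ε)`. -/
noncomputable def jw (a : ℝ → ℝ) (h ε y : ℝ) : ℝ := ∫ x in y..h, a x / (x + ε)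

/-- The weight `K = J / a`. -/
noncomputable def kw (a : ℝ → ℝ) (h ε y : ℝ) : ℝ := jw a h ε y / a y

variable {a : ℝ → ℝ} {h ε : ℝ}

lemma Prof.integrableOn (ha : Prof a h) : IntegrableOn a (Ioo 0 h) := by
  obtain ⟨C, hC⟩ := ha.bdd
  refine Integrable.mono' (integrableOn_const (C := C) (by simp)) ha.meas.aestronglyMeasurable ?_
  filter_upwards [ae_restrict_mem measurableSet_Ioo] with x hx
  rw [Real.norm_eq_abs, abs_of_pos (ha.pos x hx)]
  exact hC x hx

lemma Prof.integral_pos (ha : Prof a h) : 0 < ∫ x in Ioo 0 h, a x := by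
  rw [setIntegral_pos_iff_support_of_nonneg_ae
    (by filter_upwards [ae_restrict_mem measurableSet_Ioo] with x hx using (ha.pos x hx).le)
    ha.integrableOn]
  have : Function.support a ∩ Ioo 0 h = Ioo 0 h :=
    inter_eq_right.2 fun x hx => (ha.pos x hx).ne'
  rw [this, Real.volume_Ioo]
  simpa using ha.hpos

lemma Prof.integrable_div (ha : Prof a h) (hε : 0 < ε) :
    IntegrableOn (fun x => a x / (x + ε)) (Ioo 0 h) := by
  refine Integrable.mono' (ha.integrableOn.const_mul (1 / ε))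
    (ha.meas.div (measurable_id.add_const ε)).aestronglyMeasurable ?_
  filter_upwards [ae_restrict_mem measurableSet_Ioo] with x hx
  have h0 := ha.pos x hx
  rw [Real.norm_eq_abs, abs_of_pos (div_pos h0 (by linarith [hx.1]))]
  rw [one_div, ← div_eq_inv_mul]
  exact div_le_div_of_nonneg_left h0.le hε (by linarith [hx.1])

lemma Prof.ii_div (ha : Prof a h) (hε : 0 < ε) {c d : ℝ} (hc : 0 ≤ c) (hcd : c ≤ d) (hd : d ≤ h) :
    IntervalIntegrable (fun x => a x / (x + ε)) volume c d := by
  rw [intervalIntegrable_iff_integrableOn_Ioo_of_le hcd]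
  exact (ha.integrable_div hε).mono_set (Ioo_subset_Ioo hc hd)

lemma jw_cont (ha : Prof a h) (hε : 0 < ε) : ContinuousOn (jw a h ε) (Icc 0 h) := by
  have hii := ha.ii_div hε le_rfl ha.hpos.le le_rfl
  have hprim := intervalIntegral.continuousOn_primitive_interval (μ := volume) (a := 0) (b := h)
    (f := fun x => a x / (x + ε))
    (by rw [uIcc_of_le ha.hpos.le]; exact (ha.integrable_div hε).congr_set_ae Ioo_ae_eq_Icc.symm)
  rw [uIcc_of_le ha.hpos.le] at hprim
  refine ((continuousOn_const (c := ∫ x in (0:ℝ)..h, a x / (x + ε))).sub hprim).congr ?_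
  intro y hy
  have := intervalIntegral.integral_add_adjacent_intervals
    (ha.ii_div hε le_rfl hy.1 hy.2) (ha.ii_div hε hy.1 hy.2 le_rfl)
  simp only [jw, Pi.sub_apply]
  linarith

lemma jw_end (a : ℝ → ℝ) (h ε : ℝ) : jw a h ε h = 0 := intervalIntegral.integral_same

lemma jw_deriv (ha : Prof a h) (hε : 0 < ε) {y : ℝ} (hy : y ∈ Ioo 0 h) :
    HasDerivAt (jw a h ε) (-(a y / (y + ε))) y := by
  have hopen : IsOpen (Ioo (0:ℝ) h) := isOpen_Ioo
  have hcont : ContinuousOn (fun x => a x / (x + ε)) (Ioo 0 h) :=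
    ha.cont.div (continuousOn_id.add continuousOn_const) fun x hx => by
      have := hx.1; show x + ε ≠ 0; linarith
  refine intervalIntegral.integral_hasDerivAt_left (ha.ii_div hε hy.1.le hy.2.le le_rfl) ?_
    (hcont.continuousAt (hopen.mem_nhds hy))
  exact hcont.stronglyMeasurableAtFilter hopen y hy

lemma jw_nonneg (ha : Prof a h) (hε : 0 < ε) {y : ℝ} (hy : y ∈ Icc 0 h) : 0 ≤ jw a h ε y := by
  rw [jw, intervalIntegral.integral_of_le hy.2, integral_Ioc_eq_integral_Ioo]
  refine setIntegral_nonneg measurableSet_Ioo fun x hx => ?_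
  exact div_nonneg (ha.pos x ⟨lt_of_le_of_lt hy.1 hx.1, hx.2⟩).le (by linarith [hx.1, hy.1])

/-- `J ≤ Λ a`, where `Λ = log ((h + ε) / ε)`. -/
lemma jw_le (ha : Prof a h) (hε : 0 < ε) {y : ℝ} (hy : y ∈ Ioo 0 h) :
    jw a h ε y ≤ a y * Real.log ((h + ε) / ε) := by
  have e : ∫ x in y..h, a y * (1 / (x + ε)) = a y * Real.log ((h + ε) / (y + ε)) := by
    rw [intervalIntegral.integral_const_mul,
      intervalIntegral.integral_comp_add_right (fun x => 1 / x) ε,
      integral_one_div_of_pos (by linarith [hy.1]) (by linarith [ha.hpos])]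
  calc jw a h ε y ≤ ∫ x in y..h, a y * (1 / (x + ε)) := by
        refine intervalIntegral.integral_mono_on_of_le_Ioo hy.2.le
          (ha.ii_div hε hy.1.le hy.2.le le_rfl) ?_ fun x hx => ?_
        · refine ContinuousOn.intervalIntegrable (continuousOn_const.mul
            (continuousOn_const.div (continuousOn_id.add continuousOn_const) fun x hx => ?_))
          rw [uIcc_of_le hy.2.le] at hx
          show x + ε ≠ 0
          linarith [hx.1, hy.1]
        · rw [mul_one_div]
          have hx0 : x ∈ Ioo 0 h := ⟨hy.1.trans hx.1, hx.2⟩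
          exact div_le_div_of_nonneg_right (ha.anti hy hx0 hx.1.le) (by linarith [hx0.1])
    _ = _ := e
    _ ≤ _ := by
        refine mul_le_mul_of_nonneg_left (Real.log_le_log ?_ ?_) (ha.pos y hy).le
        · exact div_pos (by linarith [ha.hpos]) (by linarith [hy.1])
        · exact div_le_div_of_nonneg_left (by linarith [ha.hpos]) hε (by linarith [hy.1])

lemma kw_mem (ha : Prof a h) (hε : 0 < ε) {y : ℝ} (hy : y ∈ Ioo 0 h) :
    0 ≤ kw a h ε y ∧ kw a h ε y ≤ Real.log ((h + ε) / ε) := by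
  refine ⟨div_nonneg (jw_nonneg ha hε (Ioo_subset_Icc_self hy)) (ha.pos y hy).le, ?_⟩
  rw [kw, div_le_iff₀ (ha.pos y hy), mul_comm]
  exact jw_le ha hε hy

lemma jw_aesm (ha : Prof a h) (hε : 0 < ε) :
    AEStronglyMeasurable (jw a h ε) (volume.restrict (Ioo 0 h)) :=
  ((jw_cont ha hε).mono Ioo_subset_Icc_self).aestronglyMeasurable measurableSet_Ioo

lemma kw_aesm (ha : Prof a h) (hε : 0 < ε) :
    AEStronglyMeasurable (kw a h ε) (volume.restrict (Ioo 0 h)) :=
  (((jw_cont ha hε).mono Ioo_subset_Icc_self).div ha.cont fun x hx =>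
    (ha.pos x hx).ne').aestronglyMeasurable measurableSet_Ioo

lemma integral_jw_le (ha : Prof a h) (hε : 0 < ε) :
    ∫ y in Ioo 0 h, jw a h ε y ≤ ∫ y in Ioo 0 h, a y := by
  have hJ : IntegrableOn (jw a h ε) (Ioo 0 h) :=
    ((jw_cont ha hε).integrableOn_Icc).mono_set Ioo_subset_Icc_self
  have key := intervalIntegral.integral_eq_sub_of_hasDerivAt_of_le (f := fun y => (y + ε) * jw a h ε y)
    (f' := fun y => jw a h ε y - a y) ha.hpos.le
    ((continuousOn_id.add continuousOn_const).mul (jw_cont ha hε))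
    (fun y hy => by
      have := ((hasDerivAt_id y).add_const ε).mul (jw_deriv ha hε hy)
      refine this.congr_deriv ?_
      have : y + ε ≠ 0 := by linarith [hy.1]
      simp only [id_eq]
      field_simp
      ring)
    ((intervalIntegrable_iff_integrableOn_Ioo_of_le ha.hpos.le).2 (hJ.sub ha.integrableOn))
  rw [intervalIntegral.integral_of_le ha.hpos.le, integral_Ioc_eq_integral_Ioo,
    integral_sub hJ ha.integrableOn, jw_end] at key
  have := jw_nonneg ha hε (y := 0) ⟨le_rfl, ha.hpos.le⟩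
  nlinarith

/-- On every final segment `∫ J^2 ≤ 2 ∫ a J`. -/
lemma tail_le (ha : Prof a h) (hε : 0 < ε) {c : ℝ} (hc : 0 ≤ c) (hch : c ≤ h) :
    ∫ y in Ioo c h, jw a h ε y ^ 2 ≤ ∫ y in Ioo c h, 2 * (a y * jw a h ε y) := by
  have hsub : Ioo c h ⊆ Ioo 0 h := Ioo_subset_Ioo hc le_rfl
  have hcont := (jw_cont ha hε).mono (Icc_subset_Icc hc le_rfl)
  have h1 : IntegrableOn (fun y => jw a h ε y ^ 2) (Ioo c h) :=
    ((hcont.pow 2).integrableOn_Icc).mono_set Ioo_subset_Icc_self
  have h2 : IntegrableOn (fun y => 2 * (a y * jw a h ε y)) (Ioo c h) := by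
    refine Integrable.const_mul ?_ 2
    exact ((ha.integrableOn.mono_set hsub).congr_set_ae Ioo_ae_eq_Icc.symm
      |>.mul_continuousOn hcont isCompact_Icc).mono_set Ioo_subset_Icc_self
  have key := intervalIntegral.integral_eq_sub_of_hasDerivAt_of_le
    (f := fun y => (y + ε) * jw a h ε y ^ 2)
    (f' := fun y => jw a h ε y ^ 2 - 2 * (a y * jw a h ε y)) hch
    ((continuousOn_id.add continuousOn_const).mul (hcont.pow 2))
    (fun y hy => by
      have hy' := hsub hy
      have := ((hasDerivAt_id y).add_const ε).mul ((jw_deriv ha hε hy').pow 2)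
      refine this.congr_deriv ?_
      have : y + ε ≠ 0 := by linarith [hy'.1]
      simp only [id_eq, Pi.pow_apply]
      field_simp
      ring)
    ((intervalIntegrable_iff_integrableOn_Ioo_of_le hch).2 (h1.sub h2))
  rw [intervalIntegral.integral_of_le hch, integral_Ioc_eq_integral_Ioo, integral_sub h1 h2,
    jw_end] at key
  have : 0 ≤ (c + ε) * jw a h ε c ^ 2 := by positivity
  linarith

lemma lintegral_tail_le (ha : Prof a h) (hε : 0 < ε) (r : ℝ) :
    ∫⁻ y in {y | r < 1 / a y} ∩ Ioo 0 h, ENNReal.ofReal (jw a h ε y ^ 2) ≤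
      ∫⁻ y in {y | r < 1 / a y} ∩ Ioo 0 h, ENNReal.ofReal (2 * (a y * jw a h ε y)) := by
  set S := {y | r < 1 / a y} ∩ Ioo 0 h with hS
  rcases S.eq_empty_or_nonempty with h0 | hne
  · simp [h0]
  have hbdd : BddBelow S := ⟨0, fun y hy => hy.2.1.le⟩
  set c := sInf S
  have hc : 0 ≤ c := le_csInf hne fun y hy => hy.2.1.le
  obtain ⟨z, hz⟩ := hne
  have hch : c ≤ h := (csInf_le hbdd hz).trans hz.2.2.le
  have hup : Ioo c h ⊆ S := by
    intro y hy
    obtain ⟨w, hw, hwy⟩ := exists_lt_of_csInf_lt ⟨z, hz⟩ hy.1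
    have hy0 : y ∈ Ioo 0 h := ⟨hw.2.1.trans hwy, hy.2⟩
    refine ⟨?_, hy0⟩
    have h1 : r < 1 / a w := hw.1
    exact lt_of_lt_of_le h1 (one_div_le_one_div_of_le (ha.pos y hy0) (ha.anti hw.2 hy0 hwy.le))
  have hae : S =ᵐ[volume] Ioo c h := by
    refine (ae_eq_set.2 ⟨?_, by simp [sdiff_eq_bot_iff.2 hup]⟩)
    refine measure_mono_null (t := {c}) (fun y hy => ?_) (measure_singleton c)
    have h1 := csInf_le hbdd hy.1
    rcases h1.eq_or_lt with h2 | h2
    · exact h2.symm
    · exact absurd ⟨h2, hy.1.2.2⟩ hy.2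
  rw [setLIntegral_congr hae, setLIntegral_congr hae]
  have hcont := (jw_cont ha hε).mono (Icc_subset_Icc hc le_rfl)
  have hsub : Ioo c h ⊆ Ioo 0 h := Ioo_subset_Ioo hc le_rfl
  have h2 : IntegrableOn (fun y => 2 * (a y * jw a h ε y)) (Ioo c h) :=
    (((ha.integrableOn.mono_set hsub).congr_set_ae Ioo_ae_eq_Icc.symm
      |>.mul_continuousOn hcont isCompact_Icc).mono_set Ioo_subset_Icc_self).const_mul 2
  have h1 : IntegrableOn (fun y => jw a h ε y ^ 2) (Ioo c h) volume :=
    ((hcont.pow 2).integrableOn_Icc).mono_set Ioo_subset_Icc_self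
  rw [← ofReal_integral_eq_lintegral_ofReal h1
      (Filter.Eventually.of_forall fun y => sq_nonneg _),
    ← ofReal_integral_eq_lintegral_ofReal h2 (by
      filter_upwards [ae_restrict_mem measurableSet_Ioo] with y hy
      have := ha.pos y (hsub hy)
      have := jw_nonneg ha hε (Ioo_subset_Icc_self (hsub hy))
      positivity)]
  exact ENNReal.ofReal_le_ofReal (tail_le ha hε hc hch)

lemma kw_sq_integrable (ha : Prof a h) (hε : 0 < ε) :
    IntegrableOn (fun y => a y * kw a h ε y ^ 2) (Ioo 0 h) := by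
  refine Integrable.mono' (ha.integrableOn.mul_const (Real.log ((h + ε) / ε) ^ 2))
    (ha.meas.aestronglyMeasurable.mul ((kw_aesm ha hε).pow 2)) ?_
  filter_upwards [ae_restrict_mem measurableSet_Ioo] with y hy
  obtain ⟨k0, k1⟩ := kw_mem ha hε hy
  have hp := ha.pos y hy
  rw [Real.norm_eq_abs, abs_of_nonneg (by positivity)]
  exact mul_le_mul_of_nonneg_left (pow_le_pow_left₀ k0 k1 2) hp.le

/-- The second moment of the hazard weight is at most two. -/
theorem kw_sq_le (ha : Prof a h) (hε : 0 < ε) :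
    ∫ y in Ioo 0 h, a y * kw a h ε y ^ 2 ≤ 2 * ∫ y in Ioo 0 h, a y := by
  set μ := volume.restrict (Ioo (0:ℝ) h)
  have hwm : Measurable fun y => 1 / a y := measurable_const.div ha.meas
  have hw0 : ∀ᵐ y ∂μ, 0 ≤ 1 / a y := by
    filter_upwards [ae_restrict_mem measurableSet_Ioo] with y hy using
      (one_div_pos.2 (ha.pos y hy)).le
  set F : ℝ → ℝ≥0∞ := fun y => ENNReal.ofReal (jw a h ε y ^ 2)
  set G : ℝ → ℝ≥0∞ := fun y => ENNReal.ofReal (2 * (a y * jw a h ε y))
  have hFm : AEMeasurable F μ := ((jw_aesm ha hε).aemeasurable.pow_const 2).ennreal_ofReal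
  have hGm : AEMeasurable G μ :=
    ((ha.meas.aemeasurable.mul (jw_aesm ha hε).aemeasurable).const_mul 2).ennreal_ofReal
  have hW : Measurable fun y => ENNReal.ofReal (1 / a y) := hwm.ennreal_ofReal
  have cake : ∀ D : ℝ → ℝ≥0∞, AEMeasurable D μ →
      ∫⁻ y, D y * ENNReal.ofReal (1 / a y) ∂μ =
        ∫⁻ t in Ioi (0:ℝ), ∫⁻ y in {y | t < 1 / a y} ∩ Ioo 0 h, D y := by
    intro D hD
    have h1 := lintegral_withDensity_eq_lintegral_mul₀ hD hW.aemeasurable
    simp only [Pi.mul_apply] at h1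
    rw [← h1, lintegral_eq_lintegral_meas_lt (μ.withDensity D) ((withDensity_absolutelyContinuous μ D).ae_le hw0)
      hwm.aemeasurable]
    refine lintegral_congr fun t => ?_
    rw [withDensity_apply _ (measurableSet_lt measurable_const hwm),
      Measure.restrict_restrict (measurableSet_lt measurable_const hwm)]
  have hmain : ∫⁻ y, F y * ENNReal.ofReal (1 / a y) ∂μ ≤ ∫⁻ y, G y * ENNReal.ofReal (1 / a y) ∂μ := by
    rw [cake F hFm, cake G hGm]
    exact lintegral_mono fun t => lintegral_tail_le ha hε t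
  have eF : ∫⁻ y, F y * ENNReal.ofReal (1 / a y) ∂μ =
      ENNReal.ofReal (∫ y in Ioo 0 h, a y * kw a h ε y ^ 2) := by
    rw [ofReal_integral_eq_lintegral_ofReal (kw_sq_integrable ha hε)]
    · refine lintegral_congr_ae ?_
      filter_upwards [ae_restrict_mem measurableSet_Ioo] with y hy
      rw [← ENNReal.ofReal_mul (sq_nonneg _)]
      congr 1
      have := (ha.pos y hy).ne'
      simp only [kw]
      field_simp
    · filter_upwards [ae_restrict_mem measurableSet_Ioo] with y hy
      have := ha.pos y hy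
      positivity
  have hJ : IntegrableOn (jw a h ε) (Ioo 0 h) :=
    ((jw_cont ha hε).integrableOn_Icc).mono_set Ioo_subset_Icc_self
  have eG : ∫⁻ y, G y * ENNReal.ofReal (1 / a y) ∂μ =
      ENNReal.ofReal (∫ y in Ioo 0 h, 2 * jw a h ε y) := by
    rw [ofReal_integral_eq_lintegral_ofReal (hJ.const_mul 2)]
    · refine lintegral_congr_ae ?_
      filter_upwards [ae_restrict_mem measurableSet_Ioo] with y hy
      have h0 := ha.pos y hy
      have := jw_nonneg ha hε (Ioo_subset_Icc_self hy)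
      rw [← ENNReal.ofReal_mul (by positivity)]
      congr 1
      field_simp
    · filter_upwards [ae_restrict_mem measurableSet_Ioo] with y hy
      have := jw_nonneg ha hε (Ioo_subset_Icc_self hy)
      positivity
  rw [eF, eG, ENNReal.ofReal_le_ofReal_iff] at hmain
  · rw [integral_const_mul] at hmain
    linarith [integral_jw_le ha hε]
  · exact setIntegral_nonneg measurableSet_Ioo fun y hy =>
      mul_nonneg (by norm_num) (jw_nonneg ha hε (Ioo_subset_Icc_self hy))

end Vale.Agent.P254.BM
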